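import Vale.Agent.P251CB.Step
import Vale.Agent.P251CF.Defs
import Vale.Agent.P251.G.Glue

/-!
# P251C, block B: functorial cell approximation

`QQ M : M ⥤ M`, `qq M : QQ M ⟶ 𝟭 M`; the values of `QQ M` are cell objects and the components
of `qq M` are stable equivalences.
-/

open CategoryTheory MonoidalCategory Limits

namespace Vale.Agent.P251CB

open Vale.Agent.P251.G Vale.Agent.P251.G.LC Vale.Agent.P251.H Vale.Agent.P251.H.StabInput
  Vale.Agent.P251.H.LP Vale.Agent.P251CF Functor.LaxMonoidal Functor.OplaxMonoidal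

universe v u

section general

variable {M : Type u} [Category.{v} M] [MonoidalCategory M] [SymmetricCategory M]
    [MonoidalClosed M] [HasZeroMorphisms M] [HasColimitsOfSize.{0, 0} M] [StabInput M]

/-- stable classes in the colimit of a sequence of h-cofibrations come from a stage -/
def SeqPi (GG : ObjectProperty M) : Prop :=
  ∀ (F : ℕ ⥤ M), CofSeq F → ∀ (c : Cocone F), IsColimit c → ∀ A, GG A →
    ∀ x : PiM A c.pt, ∃ (n : ℕ) (y : PiM A (F.obj n)), mapM A (c.ι.app n) y = x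

theorem seqPi_of_seqSmall (h : SeqSmall M) (AA : ObjectProperty LC)
    [Fact (∀ K, AA K → AA (RR ⊗ K))] : SeqPi (cells AA : ObjectProperty M) := by
  intro F hF c hc A hA x
  obtain ⟨k, x, rfl⟩ := CoPt.cl_surj x
  obtain ⟨x, rfl⟩ := HM.proj_map_surjective x
  obtain ⟨n, K, -, ⟨e⟩⟩ := IsTest.pw (cells AA : ObjectProperty M) hA k
  obtain ⟨m, a, ha⟩ := (h F hF c hc).2 n K (e.inv ≫ x)
  refine ⟨m, (stab M).coPt.cl k ((HM.proj M).map (e.hom ≫ a)), ?_⟩
  refine (CoPt.map_cl _ _ _ _ _).trans ?_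
  have : (e.hom ≫ a) ≫ c.ι.app m = x :=
    (Category.assoc _ _ _).trans ((congrArg (e.hom ≫ ·) ha).trans (e.hom_inv_id_assoc x))
  rw [← this]
  rfl

/-- surjectivity on stable classes from strict lifts -/
theorem mapM_surjective {GG : ObjectProperty M} [IsTest GG] {Y X : M} (q : Y ⟶ X)
    (h : ∀ A, GG A → ∀ f : A ⟶ X, ∃ l : A ⟶ Y, l ≫ q = f) {A : M} (hA : GG A) :
    Function.Surjective (mapM A q) := by
  intro x
  obtain ⟨k, x, rfl⟩ := CoPt.cl_surj x
  obtain ⟨x, rfl⟩ := HM.proj_map_surjective x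
  obtain ⟨l, hl⟩ := h _ (IsTest.pw GG hA k) x
  refine ⟨(stab M).coPt.cl k ((HM.proj M).map l), ?_⟩
  refine (CoPt.map_cl _ _ _ _ _).trans ?_
  rw [← hl]
  rfl

/-- a stable class killed by `p` is killed by `i` if this holds for maps out of test objects -/
theorem mapM_eq_zero {GG : ObjectProperty M} [IsTest GG] {Y X Y' : M} (p : Y ⟶ X) (i : Y ⟶ Y')
    (h : ∀ A, GG A → ∀ a : A ⟶ Y, MHtpy (a ≫ p) 0 → MHtpy (a ≫ i) 0) {A : M} (hA : GG A)
    (y : PiM A Y) (hy : mapM A p y = 0) : mapM A i y = 0 := by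
  obtain ⟨k, y, rfl⟩ := CoPt.cl_surj y
  rw [mapM, CoPt.map_cl, StabObj.cl_eq_zero_iff] at hy ⊢
  obtain ⟨m, hm, e⟩ := hy
  refine ⟨m, hm, ?_⟩
  rw [← Category.assoc] at e ⊢
  obtain ⟨a, ha⟩ := HM.proj_map_surjective ((stab M).coPt.tr hm ((HM.proj M).obj A) ≫ y)
  rw [← ha] at e ⊢
  exact HM.sound (h _ (IsTest.pw GG hA m) a ((HM.proj_map_eq_iff _ _).1 e))

/-- the sources of the two generating maps of spaces -/
def gs : Bool → LC
  | false => LC.of Empty
  | true => 𝟙_ LC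

/-- the targets of the two generating maps of spaces -/
def gt : Bool → LC
  | false => 𝟙_ LC
  | true => HH

/-- the two generating maps of spaces -/
def gm : ∀ b, gs b ⟶ gt b
  | false => (0 : LC.of Empty ⟶ 𝟙_ LC)
  | true => zeroHH

/-- the generating maps attached to a family of objects -/
def gens {κ : Type} (Z : κ → M) (x : κ × Bool) :
    Z x.1 ⊗ (J M).obj (gs x.2) ⟶ Z x.1 ⊗ (J M).obj (gt x.2) :=
  Z x.1 ◁ (J M).map (gm x.2)

theorem genMap_gens {P : ObjectProperty M} {κ : Type} {Z : κ → M} (hZ : ∀ j, P (Z j))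
    (x : κ × Bool) : GenMap P (gens Z x) := by
  obtain ⟨j, b⟩ := x
  refine ⟨Z j, gs b, gt b, gm b, Iso.refl _, Iso.refl _, hZ j, ?_, ?_, ?_,
    (Category.id_comp _).trans (Category.comp_id _).symm⟩
  · cases b
    · exact FC.empty
    · exact FC.unit
  · cases b
    · exact FC.unit
    · exact FC.halfLine
  · cases b
    · exact cofib_of_isEmpty (A := LC.of Empty) _
    · exact cofib_point_zero

theorem CellClosed.initial {P : ObjectProperty M} (hP : CellClosed P) : P (⊥_ M) := by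
  have h := hP.sigma (ι := Empty) (fun i => i.elim) (fun i => i.elim)
  refine hP.iso (IsInitial.uniqueUpToIso ?_ initialIsInitial) h
  exact IsInitial.ofUniqueHom (fun _ => Sigma.desc (fun i => i.elim))
    (fun _ _ => Sigma.hom_ext _ _ (fun i => i.elim))

/-- iterated suspensions of the unit -/
def sph : ℕ → LC
  | 0 => 𝟙_ LC
  | m + 1 => RR ⊗ sph m

theorem fc_sph : ∀ m, FC (sph m)
  | 0 => FC.unit
  | m + 1 => FC.line.tensor (fc_sph m)

theorem isSph_sph : ∀ m, IsSph (sph m)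
  | 0 => IsSph.unit
  | m + 1 => (isSph_sph m).susp

theorem exists_sph {K : LC} (h : IsSph K) : ∃ m, K = sph m := by
  induction h with
  | unit => exact ⟨0, rfl⟩
  | susp _ ih =>
    obtain ⟨m, rfl⟩ := ih
    exact ⟨m + 1, rfl⟩

end general

variable {M : Type u} [Category.{0} M] [MonoidalCategory M] [SymmetricCategory M]
    [MonoidalClosed M] [HasZeroMorphisms M] [HasColimitsOfSize.{0, 0} M] [StabInput M]

section soa

variable {ι : Type} {A B : ι → M} (g : ∀ i, A i ⟶ B i) (E : Appr M)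

theorem att_seq {P : ObjectProperty M} (hg : ∀ i, GenMap P (g i)) (X : M) (n : ℕ) :
    Att P (sc (E.seq g X) n) :=
  ⟨_, _, _, _, _, _, fun s => hg s.i, E.seq_isPushout g X n⟩

theorem cofSeq_seq {P : ObjectProperty M} (hg : ∀ i, GenMap P (g i)) (X : M) :
    CofSeq (E.seq g X) := fun n => (att_seq g E hg X n).hCof

theorem prop_seq {P : ObjectProperty M} (hP : CellClosed P) (hg : ∀ i, GenMap P (g i)) (X : M)
    (h0 : P (E.Q.obj X)) : ∀ n, P ((E.seq g X).obj n)
  | 0 => h0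
  | n + 1 => hP.att (att_seq g E hg X n) (prop_seq hP hg X h0 n)

theorem prop_lim {P : ObjectProperty M} (hP : CellClosed P) (hg : ∀ i, GenMap P (g i)) (X : M)
    (h0 : P (E.Q.obj X)) : P ((E.lim g).Q.obj X) :=
  hP.seq _ (E.cocone g X) (E.isColimit g X) (att_seq g E hg X) (prop_seq g E hP hg X h0)

end soa

section gens

variable {κ : Type} (Z : κ → M) (E : Appr M)

theorem exists_lift_gens (X : M) (j : κ) (f : Z j ⟶ X) :
    ∃ l : Z j ⟶ (E.lim (gens Z)).Q.obj X, l ≫ (E.lim (gens Z)).q X = f := by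
  have hz : IsZero (Z j ⊗ (J M).obj (LC.of Empty)) :=
    StabInput.isZero_tensor_right _ isZero_empty
  obtain ⟨l, hl'⟩ : ∃ l : Z j ⊗ (J M).obj (𝟙_ LC) ⟶ (E.lim (gens Z)).Q.obj X,
      l ≫ (E.lim (gens Z)).q X = Z j ◁ η (J M) ≫ (ρ_ (Z j)).hom ≫ f := by
    obtain ⟨l, -, hl⟩ := E.exists_lift (gens Z) X (j, false) 0 0
      (Z j ◁ η (J M) ≫ (ρ_ (Z j)).hom ≫ f) (hz.eq_of_src _ _)
    exact ⟨l, hl⟩
  refine ⟨(ρ_ (Z j)).inv ≫ Z j ◁ ε (J M) ≫ l, ?_⟩
  rw [Category.assoc, Category.assoc, hl', ← MonoidalCategory.whiskerLeft_comp_assoc,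
    Functor.Monoidal.ε_η, MonoidalCategory.whiskerLeft_id, Category.id_comp,
    Iso.inv_hom_id_assoc]

theorem null_gens (X : M) (j : κ) (n : ℕ) (a : Z j ⟶ (E.stage (gens Z) n).Q.obj X)
    (ha : MHtpy (a ≫ (E.stage (gens Z) n).q X) 0) : MHtpy (a ≫ E.ιs (gens Z) X n) 0 := by
  obtain ⟨N, hN⟩ := exists_cone_of_null ha
  have key : ∀ {Y : M} (N : Z j ⊗ CI M ⟶ Y), Z j ◁ (J M).map zeroHH ≫ N =
      Z j ◁ η (J M) ≫ (ρ_ (Z j)).hom ≫ coneBase (Z j) ≫ N := by
    intro Y N
    rw [coneBase_def, Category.assoc, Iso.hom_inv_id_assoc,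
      ← MonoidalCategory.whiskerLeft_comp_assoc, Functor.Monoidal.η_ε_assoc]
  have w : Z j ◁ (J M).map zeroHH ≫ N = ((Z j ◁ η (J M) ≫ (ρ_ (Z j)).hom ≫ a) ≫
      E.ιs (gens Z) X n) ≫ (E.lim (gens Z)).q X := by
    rw [key, hN, Category.assoc, Appr.ιs_q, Category.assoc, Category.assoc]
  obtain ⟨l, hl'⟩ : ∃ l : Z j ⊗ CI M ⟶ (E.lim (gens Z)).Q.obj X, Z j ◁ (J M).map zeroHH ≫ l =
      (Z j ◁ η (J M) ≫ (ρ_ (Z j)).hom ≫ a) ≫ E.ιs (gens Z) X n := by
    obtain ⟨l, hl, -⟩ := E.exists_lift (gens Z) X (j, true) n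
      (Z j ◁ η (J M) ≫ (ρ_ (Z j)).hom ≫ a) N w
    exact ⟨l, hl⟩
  rw [key, Category.assoc, Category.assoc, cancel_epi, cancel_epi] at hl'
  rw [← hl', ← Category.id_comp l]
  refine (MHtpy.comp_left _ (MHtpy.comp_right (mcontr_tensor_CI (Z j)) _)).trans
    (MHtpy.of_eq ?_)
  rw [zero_comp, comp_zero]

/-- **The approximation is a stable equivalence.** -/
theorem piW_lim {GG : ObjectProperty M} [IsTest GG] (hs : SeqPi GG)
    (hZ : ∀ A, GG A → ∃ j, Nonempty (A ≅ Z j)) (X : M) : piW GG ((E.lim (gens Z)).q X) := by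
  rw [piW_iff]
  intro A hA
  constructor
  · refine ((stab M).map_injective_iff _ _).2 (fun x hx => ?_)
    obtain ⟨n, y, rfl⟩ := hs _ (cofSeq_seq (gens Z) E (P := ⊤) (genMap_gens (fun _ => trivial)) X)
      (E.cocone (gens Z) X) (E.isColimit (gens Z) X) A hA x
    refine mapM_eq_zero (GG := GG) ((E.stage (gens Z) n).q X) (E.ιs (gens Z) X n) ?_ hA y ?_
    · intro A' hA' a ha
      obtain ⟨j, ⟨e⟩⟩ := hZ A' hA'
      have h1 := null_gens Z E X j n (e.inv ≫ a) (by
        have := MHtpy.comp_left e.inv ha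
        rwa [comp_zero, ← Category.assoc] at this)
      have h2 := MHtpy.comp_left e.hom h1
      rwa [comp_zero, Category.assoc, Iso.hom_inv_id_assoc] at h2
    · refine (congrArg (fun φ => mapM A φ y) (E.ιs_q (gens Z) X n).symm).trans ?_
      exact (mapM_comp A (E.ιs (gens Z) X n) ((E.lim (gens Z)).q X) y).trans hx
  · refine mapM_surjective (GG := GG) _ (fun A' hA' f => ?_) hA
    obtain ⟨j, ⟨e⟩⟩ := hZ A' hA'
    obtain ⟨l, hl⟩ := exists_lift_gens Z E X j (e.inv ≫ f)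
    exact ⟨e.hom ≫ l, by rw [Category.assoc, hl, Iso.hom_inv_id_assoc]⟩

end gens

variable (M)

/-- the sphere cells -/
def sphCell (x : ℕ × ℕ) : M := cell x.1 (sph x.2)

/-- the cell approximation -/
noncomputable def cellAppr : Appr M := Appr.lim (gens (sphCell M)) Appr.bot

/-- the cell approximation functor -/
noncomputable def QQ : M ⥤ M := (cellAppr M).Q

/-- the augmentation of the cell approximation -/
noncomputable def qq : QQ M ⟶ 𝟭 M := (cellAppr M).qNat

variable {M}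

theorem prop_QQ {P : ObjectProperty M} (hP : CellClosed P) (X : M) : P ((QQ M).obj X) :=
  prop_lim (gens (sphCell M)) Appr.bot hP
    (genMap_gens (Z := sphCell M) (fun j => hP.cell j.1 (fc_sph j.2))) X
    (CellClosed.initial hP)

/-- **The values of the approximation are cell objects.** -/
theorem cc_QQ (X : M) : CC M ((QQ M).obj X) := prop_QQ cellClosed_CC X

/-- **The augmentation is a stable equivalence.** -/
theorem piW_qq (hs : SeqPi (cells IsSph : ObjectProperty M)) (X : M) :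
    piW (cells IsSph) ((qq M).app X) := by
  refine piW_lim (sphCell M) Appr.bot hs ?_ X
  rintro A ⟨n, K, hK, he⟩
  obtain ⟨m, rfl⟩ := exists_sph hK
  exact ⟨(n, m), he⟩

theorem piW_qq_of_seqSmall (hs : SeqSmall M) (X : M) : piW (cells IsSph) ((qq M).app X) :=
  piW_qq (seqPi_of_seqSmall hs IsSph) X

end Vale.Agent.P251CB
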