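import Vale.Agent.P251CB.Main

/-!
# P251C, block B: the stages of the cell approximation

The sequence of stages as a functor `stF M : M ⥤ (ℕ ⥤ M)`, the cocone `aug X` with point `X`,
flatness of the stages and the two properties of the stable classes of the stages.
-/

open CategoryTheory MonoidalCategory Limits

namespace Vale.Agent.P251CB

open Vale.Agent.P251.G Vale.Agent.P251.G.LC Vale.Agent.P251.H Vale.Agent.P251.H.StabInput
  Vale.Agent.P251.H.LP Vale.Agent.P251CF Functor.LaxMonoidal Functor.OplaxMonoidal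

universe u

section general

variable {M : Type u} [Category.{0} M] [HasColimitsOfSize.{0, 0} M]
  {ι : Type} {A B : ι → M} (g : ∀ i, A i ⟶ B i) (E : Appr M)

/-- the sequence of the stages as a functor -/
noncomputable def Appr.seqFun : M ⥤ (ℕ ⥤ M) where
  obj X := E.seq g X
  map v := Functor.whiskerLeft (E.seqF g) ((evaluation M M).map v)
  map_id X := by
    ext n
    exact (E.stage g n).Q.map_id X
  map_comp v v' := by
    ext n
    exact (E.stage g n).Q.map_comp v v'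

/-- the augmentations of the stages as a cocone with point `X` -/
noncomputable def Appr.aug (X : M) : Cocone (E.seq g X) :=
  ((evaluation M M).obj X).mapCocone (E.seqCocone g)

theorem Appr.aug_pt (X : M) : (E.aug g X).pt = X := rfl

theorem Appr.aug_ι (X : M) (n : ℕ) : (E.aug g X).ι.app n = (E.stage g n).q X := rfl

theorem Appr.aug_nat {X X' : M} (v : X ⟶ X') (n : ℕ) :
    (E.aug g X).ι.app n ≫ (v : (E.aug g X).pt ⟶ (E.aug g X').pt) =
      ((E.seqFun g).map v).app n ≫ (E.aug g X').ι.app n :=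
  ((E.stage g n).nat v).symm

end general

variable {M : Type u} [Category.{0} M] [MonoidalCategory M] [SymmetricCategory M]
    [MonoidalClosed M] [HasZeroMorphisms M] [HasColimitsOfSize.{0, 0} M] [StabInput M]

section gens

variable {κ : Type} (Z : κ → M)

theorem exists_lift_step {Y X : M} (p : Y ⟶ X) (j : κ) (f : Z j ⟶ X) :
    ∃ l : Z j ⟶ stepObj (gens Z) p, l ≫ stepπ (gens Z) p = f := by
  have hz : IsZero (Z j ⊗ (J M).obj (LC.of Empty)) :=
    StabInput.isZero_tensor_right _ isZero_empty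
  obtain ⟨l, hl⟩ : ∃ l : Z j ⊗ (J M).obj (𝟙_ LC) ⟶ stepObj (gens Z) p,
      l ≫ stepπ (gens Z) p = Z j ◁ η (J M) ≫ (ρ_ (Z j)).hom ≫ f :=
    ⟨_, cellι_π (gens Z) p (j, false) 0 (Z j ◁ η (J M) ≫ (ρ_ (Z j)).hom ≫ f)
      (hz.eq_of_src _ _)⟩
  refine ⟨(ρ_ (Z j)).inv ≫ Z j ◁ ε (J M) ≫ l, ?_⟩
  rw [Category.assoc, Category.assoc, hl, ← MonoidalCategory.whiskerLeft_comp_assoc,
    Functor.Monoidal.ε_η, MonoidalCategory.whiskerLeft_id, Category.id_comp,
    Iso.inv_hom_id_assoc]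

theorem null_step {Y X : M} (p : Y ⟶ X) (j : κ) (a : Z j ⟶ Y) (ha : MHtpy (a ≫ p) 0) :
    MHtpy (a ≫ stepι (gens Z) p) 0 := by
  obtain ⟨N, hN⟩ := exists_cone_of_null ha
  have key : ∀ {Y : M} (N : Z j ⊗ CI M ⟶ Y), Z j ◁ (J M).map zeroHH ≫ N =
      Z j ◁ η (J M) ≫ (ρ_ (Z j)).hom ≫ coneBase (Z j) ≫ N := by
    intro Y N
    rw [coneBase_def, Category.assoc, Iso.hom_inv_id_assoc,
      ← MonoidalCategory.whiskerLeft_comp_assoc, Functor.Monoidal.η_ε_assoc]
  have w : Z j ◁ (J M).map zeroHH ≫ N = (Z j ◁ η (J M) ≫ (ρ_ (Z j)).hom ≫ a) ≫ p := by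
    rw [key, hN, Category.assoc, Category.assoc]
  obtain ⟨l, hl⟩ : ∃ l : Z j ⊗ CI M ⟶ stepObj (gens Z) p, Z j ◁ (J M).map zeroHH ≫ l =
      (Z j ◁ η (J M) ≫ (ρ_ (Z j)).hom ≫ a) ≫ stepι (gens Z) p :=
    ⟨_, g_cellι (gens Z) p (j, true) (Z j ◁ η (J M) ≫ (ρ_ (Z j)).hom ≫ a) N w⟩
  rw [key, Category.assoc, Category.assoc, cancel_epi, cancel_epi] at hl
  rw [← hl, ← Category.id_comp l]
  refine (MHtpy.comp_left _ (MHtpy.comp_right (mcontr_tensor_CI (Z j)) _)).trans
    (MHtpy.of_eq ?_)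
  rw [zero_comp, comp_zero]

variable {GG : ObjectProperty M} [IsTest GG] (hZ : ∀ A, GG A → ∃ j, Nonempty (A ≅ Z j))

include hZ in
theorem surj_step {Y X : M} (p : Y ⟶ X) {A : M} (hA : GG A) :
    Function.Surjective (mapM A (stepπ (gens Z) p)) := by
  refine mapM_surjective (GG := GG) _ (fun A' hA' f => ?_) hA
  obtain ⟨j, ⟨e⟩⟩ := hZ A' hA'
  obtain ⟨l, hl⟩ := exists_lift_step Z p j (e.inv ≫ f)
  exact ⟨e.hom ≫ l, by rw [Category.assoc, hl, Iso.hom_inv_id_assoc]⟩

include hZ in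
theorem ker_step {Y X : M} (p : Y ⟶ X) {A : M} (hA : GG A) (y : PiM A Y)
    (hy : mapM A p y = 0) : mapM A (stepι (gens Z) p) y = 0 := by
  refine mapM_eq_zero (GG := GG) p _ ?_ hA y hy
  intro A' hA' a ha
  obtain ⟨j, ⟨e⟩⟩ := hZ A' hA'
  have h1 := null_step Z p j (e.inv ≫ a) (by
    have := MHtpy.comp_left e.inv ha
    rwa [comp_zero, ← Category.assoc] at this)
  have h2 := MHtpy.comp_left e.hom h1
  rwa [comp_zero, Category.assoc, Iso.hom_inv_id_assoc] at h2

variable (E : Appr M)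

include hZ in
/-- every stable class of `X` comes from a stage -/
theorem aug_surj (X A : M) (hA : GG A) (x : PiM A (E.aug (gens Z) X).pt) :
    ∃ (n : ℕ) (y : PiM A ((E.seq (gens Z) X).obj n)),
      mapM A ((E.aug (gens Z) X).ι.app n) y = x :=
  ⟨1, surj_step Z hZ (E.q X) hA x⟩

include hZ in
/-- a stable class of a stage which vanishes in `X` vanishes in a later stage -/
theorem aug_ker (X A : M) (hA : GG A) (n : ℕ) (y : PiM A ((E.seq (gens Z) X).obj n))
    (hy : mapM A ((E.aug (gens Z) X).ι.app n) y = 0) :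
    ∃ (m : ℕ) (h : n ≤ m), mapM A ((E.seq (gens Z) X).map (homOfLE h)) y = 0 :=
  ⟨n + 1, Nat.le_succ n,
    (congrArg (fun φ => mapM A φ y) (E.seq_map_succ (gens Z) X n)).trans
      (ker_step Z hZ ((E.stage (gens Z) n).q X) hA y hy)⟩

end gens

section flat

variable (W : MorphismProperty M) [GoodW W]

theorem GenMap.flat {A B : M} {g : A ⟶ B} (hg : GenMap (Flat W) g) : Flat W A ∧ Flat W B := by
  obtain ⟨Z, K, K', i, a, b, hZ, hK, hK', -, -⟩ := hg
  exact ⟨(flatInput W).flat_of_iso a.symm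
      ((flatInput W).flat_tensor hZ ((flatInput W).flat_J hK)),
    (flatInput W).flat_of_iso b.symm ((flatInput W).flat_tensor hZ ((flatInput W).flat_J hK'))⟩

theorem Att.flat {X Y : M} {k : X ⟶ Y} (hk : Att (Flat W) k) (hX : Flat W X) : Flat W Y := by
  obtain ⟨ι, A, B, g, u, j, h1, h2⟩ := hk
  exact (flatInput W).flat_pushout h2 (HCof.sigma g (fun x => (h1 x).hCof))
    ((flatInput W).flat_sigma (fun x => (GenMap.flat W (h1 x)).1))
    ((flatInput W).flat_sigma (fun x => (GenMap.flat W (h1 x)).2)) hX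

theorem flat_seq {ι : Type} {A B : ι → M} (g : ∀ i, A i ⟶ B i) (E : Appr M)
    (hg : ∀ i, GenMap (Flat W) (g i)) (X : M) (h0 : Flat W (E.Q.obj X)) :
    ∀ n, Flat W ((E.seq g X).obj n)
  | 0 => h0
  | n + 1 => Att.flat W (att_seq g E hg X n) (flat_seq g E hg X h0 n)

end flat

variable (M)

/-- the stages of the cell approximation -/
noncomputable def stF : M ⥤ (ℕ ⥤ M) := Appr.seqFun (gens (sphCell M)) Appr.bot

variable {M}

/-- the augmentation of the stages -/
noncomputable def aug (X : M) : Cocone ((stF M).obj X) :=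
  Appr.aug (gens (sphCell M)) Appr.bot X

theorem aug_pt (X : M) : (aug X).pt = X := rfl

theorem aug_nat {X X' : M} (v : X ⟶ X') (n : ℕ) :
    (aug X).ι.app n ≫ (v : (aug X).pt ⟶ (aug X').pt) =
      ((stF M).map v).app n ≫ (aug X').ι.app n :=
  Appr.aug_nat (gens (sphCell M)) Appr.bot v n

theorem exists_sphCell (A : M) (hA : cells IsSph A) : ∃ j, Nonempty (A ≅ sphCell M j) := by
  obtain ⟨n, K, hK, he⟩ := hA
  obtain ⟨m, rfl⟩ := exists_sph hK
  exact ⟨(n, m), he⟩

theorem st_surj (X A : M) (hA : cells IsSph A) (x : PiM A (aug X).pt) :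
    ∃ (n : ℕ) (y : PiM A (((stF M).obj X).obj n)), mapM A ((aug X).ι.app n) y = x :=
  aug_surj (GG := cells IsSph) (sphCell M) exists_sphCell Appr.bot X A hA x

theorem st_ker (X A : M) (hA : cells IsSph A) (n : ℕ) (y : PiM A (((stF M).obj X).obj n))
    (hy : mapM A ((aug X).ι.app n) y = 0) :
    ∃ (m : ℕ) (h : n ≤ m), mapM A (((stF M).obj X).map (homOfLE h)) y = 0 :=
  aug_ker (GG := cells IsSph) (sphCell M) exists_sphCell Appr.bot X A hA n y hy

theorem st_flat (W : MorphismProperty M) [GoodW W] (X : M) (n : ℕ) :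
    Flat W (((stF M).obj X).obj n) :=
  flat_seq W (gens (sphCell M)) Appr.bot
    (genMap_gens (Z := sphCell M) (fun j => (flatInput W).flat_cell j.1 (fc_sph j.2))) X
    ((flatInput W).flat_of_isZero (isZero_of_isInitial initialIsInitial)) n

end Vale.Agent.P251CB
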