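import Mathlib.CategoryTheory.Limits.Shapes.Pullback.IsPullback.Basic
import Mathlib.CategoryTheory.Limits.Shapes.Products
import Mathlib.CategoryTheory.Limits.FunctorCategory.Basic
import Mathlib.CategoryTheory.Functor.OfSequence
import Mathlib.CategoryTheory.LiftingProperties.Basic

/-!
# P251C, block B: the functorial small object argument with countably many steps

For a family `g i : A i ⟶ B i` and `p : Y ⟶ X`, the object `stepObj g p` is obtained from `Y` by
attaching `B i` along `g i` for every commutative square from `g i` to `p`.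
`Appr M`: endofunctors with an augmentation; `Appr.step`, `Appr.stage`, `Appr.lim`.
-/

open CategoryTheory Limits

namespace Vale.Agent.P251CB

universe u

variable {M : Type u} [Category.{0} M] [HasColimitsOfSize.{0, 0} M]

variable {ι : Type} {A B : ι → M} (g : ∀ i, A i ⟶ B i)

/-- a commutative square from `g i` to `p` -/
structure Sq {Y X : M} (p : Y ⟶ X) : Type where
  /-- the index -/
  i : ι
  /-- the top map -/
  a : A i ⟶ Y
  /-- the bottom map -/
  h : B i ⟶ X
  w : g i ≫ h = a ≫ p

section step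

variable {Y X Y' X' Y'' X'' : M} (p : Y ⟶ X) (p' : Y' ⟶ X') (p'' : Y'' ⟶ X'')

/-- the attaching map -/
noncomputable def sqTop : ∐ (fun s : Sq g p => A s.i) ⟶ Y := Sigma.desc (fun s : Sq g p => s.a)

/-- the object obtained by attaching all cells -/
noncomputable def stepObj : M := pushout (Limits.Sigma.map (fun s : Sq g p => g s.i)) (sqTop g p)

/-- the sum of the cells -/
noncomputable def stepκ : ∐ (fun s : Sq g p => B s.i) ⟶ stepObj g p := pushout.inl _ _

/-- the inclusion of the old object -/
noncomputable def stepι : Y ⟶ stepObj g p := pushout.inr _ _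

theorem step_isPushout : IsPushout (Limits.Sigma.map (fun s : Sq g p => g s.i)) (sqTop g p)
    (stepκ g p) (stepι g p) :=
  IsPushout.of_hasPushout _ _

/-- one cell -/
noncomputable def cellι (i : ι) (a : A i ⟶ Y) (h : B i ⟶ X) (w : g i ≫ h = a ≫ p) :
    B i ⟶ stepObj g p :=
  Sigma.ι (fun s : Sq g p => B s.i) ⟨i, a, h, w⟩ ≫ stepκ g p

theorem cellι_congr (i : ι) {a a' : A i ⟶ Y} {h h' : B i ⟶ X} (ea : a = a') (eh : h = h')
    (w : g i ≫ h = a ≫ p) (w' : g i ≫ h' = a' ≫ p) :
    cellι g p i a h w = cellι g p i a' h' w' := by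
  subst ea eh
  rfl

@[reassoc]
theorem g_cellι (i a h w) : g i ≫ cellι g p i a h w = a ≫ stepι g p := by
  have e := Sigma.ι_map (fun s : Sq g p => g s.i) ⟨i, a, h, w⟩
  rw [cellι, ← Category.assoc]
  refine (congrArg (· ≫ stepκ g p) e.symm).trans ?_
  rw [Category.assoc, (step_isPushout g p).w, sqTop, Sigma.ι_desc_assoc]

theorem step_hom_ext {Z : M} {f f' : stepObj g p ⟶ Z}
    (e : ∀ i a h w, cellι g p i a h w ≫ f = cellι g p i a h w ≫ f')
    (e' : stepι g p ≫ f = stepι g p ≫ f') : f = f' := by
  refine (step_isPushout g p).hom_ext ?_ e'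
  apply Sigma.hom_ext
  intro s
  rw [← Category.assoc, ← Category.assoc]
  exact e s.i s.a s.h s.w

/-- maps out of the step -/
noncomputable def stepDesc {Z : M} (c : ∀ s : Sq g p, B s.i ⟶ Z) (d : Y ⟶ Z)
    (e : ∀ s : Sq g p, g s.i ≫ c s = s.a ≫ d) : stepObj g p ⟶ Z :=
  (step_isPushout g p).desc (Sigma.desc c) d (by
    apply Sigma.hom_ext
    intro s
    rw [Sigma.ι_map_assoc, Sigma.ι_desc, sqTop, Sigma.ι_desc_assoc, e])

@[reassoc]
theorem cellι_desc {Z : M} (c : ∀ s : Sq g p, B s.i ⟶ Z) (d : Y ⟶ Z)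
    (e : ∀ s : Sq g p, g s.i ≫ c s = s.a ≫ d) (i a h w) :
    cellι g p i a h w ≫ stepDesc g p c d e = c ⟨i, a, h, w⟩ := by
  rw [cellι, Category.assoc, stepDesc, IsPushout.inl_desc, Sigma.ι_desc]

@[reassoc]
theorem stepι_desc {Z : M} (c : ∀ s : Sq g p, B s.i ⟶ Z) (d : Y ⟶ Z)
    (e : ∀ s : Sq g p, g s.i ≫ c s = s.a ≫ d) : stepι g p ≫ stepDesc g p c d e = d :=
  (step_isPushout g p).inr_desc _ _ _

/-- the extended augmentation -/
noncomputable def stepπ : stepObj g p ⟶ X := stepDesc g p (fun s => s.h) p (fun s => s.w)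

@[reassoc]
theorem cellι_π (i a h w) : cellι g p i a h w ≫ stepπ g p = h := cellι_desc g p _ _ _ i a h w

@[reassoc]
theorem stepι_π : stepι g p ≫ stepπ g p = p := stepι_desc g p _ _ _

variable {p p' p''}

/-- functoriality of the step -/
noncomputable def stepMap (u : Y ⟶ Y') (v : X ⟶ X') (e : u ≫ p' = p ≫ v) :
    stepObj g p ⟶ stepObj g p' :=
  stepDesc g p (fun s => cellι g p' s.i (s.a ≫ u) (s.h ≫ v) (by
    rw [← Category.assoc, s.w, Category.assoc, Category.assoc, e])) (u ≫ stepι g p')
    (fun s => by rw [g_cellι, Category.assoc])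

@[reassoc]
theorem cellι_map (u : Y ⟶ Y') (v : X ⟶ X') (e : u ≫ p' = p ≫ v) (i a h w) :
    cellι g p i a h w ≫ stepMap g u v e = cellι g p' i (a ≫ u) (h ≫ v) (by
      rw [← Category.assoc, w, Category.assoc, Category.assoc, e]) :=
  cellι_desc g p _ _ _ i a h w

@[reassoc]
theorem stepι_map (u : Y ⟶ Y') (v : X ⟶ X') (e : u ≫ p' = p ≫ v) :
    stepι g p ≫ stepMap g u v e = u ≫ stepι g p' :=
  stepι_desc g p _ _ _

theorem stepMap_congr {u u' : Y ⟶ Y'} (h : u = u') (v : X ⟶ X') (e : u ≫ p' = p ≫ v)
    (e' : u' ≫ p' = p ≫ v) : stepMap g u v e = stepMap g u' v e' := by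
  subst h
  rfl

theorem stepMap_id : stepMap g (𝟙 Y) (𝟙 X) (p := p) (p' := p) (by simp) = 𝟙 _ := by
  apply step_hom_ext
  · intro i a h w
    rw [cellι_map]
    exact (cellι_congr g p i (Category.comp_id _) (Category.comp_id _) _ _).trans
      (Category.comp_id _).symm
  · rw [stepι_map, Category.id_comp, Category.comp_id]

theorem stepMap_comp (u : Y ⟶ Y') (v : X ⟶ X') (e : u ≫ p' = p ≫ v) (u' : Y' ⟶ Y'')
    (v' : X' ⟶ X'') (e' : u' ≫ p'' = p' ≫ v') (e'' : (u ≫ u') ≫ p'' = p ≫ v ≫ v') :
    stepMap g (u ≫ u') (v ≫ v') e'' = stepMap g u v e ≫ stepMap g u' v' e' := by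
  apply step_hom_ext
  · intro i a h w
    rw [cellι_map, cellι_map_assoc, cellι_map]
    exact cellι_congr g p'' i (Category.assoc _ _ _).symm (Category.assoc _ _ _).symm _ _
  · rw [stepι_map, stepι_map_assoc, stepι_map, Category.assoc]

@[reassoc]
theorem stepMap_π (u : Y ⟶ Y') (v : X ⟶ X') (e : u ≫ p' = p ≫ v) :
    stepMap g u v e ≫ stepπ g p' = stepπ g p ≫ v := by
  apply step_hom_ext
  · intro i a h w
    rw [cellι_map_assoc, cellι_π, cellι_π_assoc]
  · rw [stepι_map_assoc, stepι_π, stepι_π_assoc, e]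

end step

variable (M) in
/-- endofunctors with an augmentation -/
structure Appr where
  /-- the functor -/
  Q : M ⥤ M
  /-- the augmentation -/
  q : ∀ X, Q.obj X ⟶ X
  nat : ∀ {X X' : M} (v : X ⟶ X'), Q.map v ≫ q X' = q X ≫ v

namespace Appr

/-- the augmentation as a natural transformation -/
def qNat (E : Appr M) : E.Q ⟶ 𝟭 M where
  app := E.q
  naturality _ _ v := E.nat v

/-- the constant functor with value the initial object -/
noncomputable def bot : Appr M where
  Q := (Functor.const M).obj (⊥_ M)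
  q X := initial.to X
  nat _ := initial.hom_ext _ _

/-- the step on augmented endofunctors -/
noncomputable def step (E : Appr M) : Appr M where
  Q :=
    { obj := fun X => stepObj g (E.q X)
      map := fun v => stepMap g (E.Q.map v) v (E.nat v)
      map_id := fun X =>
        (stepMap_congr g (E.Q.map_id X) _ _ _).trans (stepMap_id g (p := E.q X))
      map_comp := fun v v' =>
        (stepMap_congr g (E.Q.map_comp v v') _ _ _).trans
          (stepMap_comp g (E.Q.map v) v (E.nat v) (E.Q.map v') v' (E.nat v') (by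
            rw [← E.Q.map_comp]; exact E.nat (v ≫ v'))) }
  q X := stepπ g (E.q X)
  nat v := stepMap_π g _ v (E.nat v)

/-- the inclusion into the step -/
noncomputable def toStep (E : Appr M) : E.Q ⟶ (E.step g).Q where
  app X := stepι g (E.q X)
  naturality _ _ v := (stepι_map g _ v (E.nat v)).symm

theorem toStep_q (E : Appr M) (X : M) : (E.toStep g).app X ≫ (E.step g).q X = E.q X :=
  stepι_π g _

/-- the stages of the construction -/
noncomputable def stage (E : Appr M) : ℕ → Appr M
  | 0 => E
  | n + 1 => (stage E n).step g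

variable (E : Appr M)

/-- the sequence of the stages -/
noncomputable def seqF : ℕ ⥤ (M ⥤ M) :=
  Functor.ofSequence (X := fun n => (E.stage g n).Q) (fun n => (E.stage g n).toStep g)

/-- the augmentations of the stages -/
noncomputable def seqCocone : Cocone (E.seqF g) where
  pt := 𝟭 M
  ι := NatTrans.ofSequence (F := E.seqF g) (G := (Functor.const ℕ).obj (𝟭 M))
    (fun n => (E.stage g n).qNat) (fun n => by
      have e : (E.seqF g).map (homOfLE (Nat.le_add_right n 1)) = (E.stage g n).toStep g :=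
        Functor.ofSequence_map_homOfLE_succ (X := fun n => (E.stage g n).Q)
          (fun n => (E.stage g n).toStep g) n
      rw [e]
      ext X
      exact ((E.stage g n).toStep_q g X).trans (Category.comp_id _).symm)

/-- the colimit of the stages -/
noncomputable def lim : Appr M where
  Q := colimit (E.seqF g)
  q X := (colimit.desc (E.seqF g) (E.seqCocone g)).app X
  nat v := (colimit.desc (E.seqF g) (E.seqCocone g)).naturality v

/-- the sequence of the stages at an object -/
noncomputable def seq (X : M) : ℕ ⥤ M := E.seqF g ⋙ (evaluation M M).obj X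

theorem seq_obj (X : M) (n : ℕ) : (E.seq g X).obj n = (E.stage g n).Q.obj X := rfl

theorem seq_obj_zero (X : M) : (E.seq g X).obj 0 = E.Q.obj X := rfl

theorem seq_obj_succ (X : M) (n : ℕ) :
    (E.seq g X).obj (n + 1) = stepObj g ((E.stage g n).q X) := rfl

theorem seq_map_succ (X : M) (n : ℕ) :
    (E.seq g X).map (homOfLE (Nat.le_succ n)) = stepι g ((E.stage g n).q X) :=
  congrArg (fun φ : (E.stage g n).Q ⟶ (E.stage g (n + 1)).Q => φ.app X)
    (Functor.ofSequence_map_homOfLE_succ (X := fun n => (E.stage g n).Q)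
      (fun n => (E.stage g n).toStep g) n)

/-- the successor maps are cobase changes of sums of generators -/
theorem seq_isPushout (X : M) (n : ℕ) :
    IsPushout (Limits.Sigma.map (fun s : Sq g ((E.stage g n).q X) => g s.i))
      (sqTop g ((E.stage g n).q X)) (stepκ g ((E.stage g n).q X))
      ((E.seq g X).map (homOfLE (Nat.le_succ n))) := by
  rw [seq_map_succ]
  exact step_isPushout g _

/-- the colimit cocone of the stages at an object -/
noncomputable def cocone (X : M) : Cocone (E.seq g X) :=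
  ((evaluation M M).obj X).mapCocone (colimit.cocone (E.seqF g))

theorem cocone_pt (X : M) : (E.cocone g X).pt = (E.lim g).Q.obj X := rfl

/-- the value of the limit functor is the colimit of the stages -/
noncomputable def isColimit (X : M) : IsColimit (E.cocone g X) :=
  isColimitOfPreserves ((evaluation M M).obj X) (colimit.isColimit (E.seqF g))

/-- the inclusion of a stage -/
noncomputable def ιs (X : M) (n : ℕ) : (E.stage g n).Q.obj X ⟶ (E.lim g).Q.obj X :=
  (E.cocone g X).ι.app n

theorem ιs_q (X : M) (n : ℕ) : E.ιs g X n ≫ (E.lim g).q X = (E.stage g n).q X :=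
  congrArg (fun φ : (E.seqF g).obj n ⟶ 𝟭 M => φ.app X)
    (colimit.ι_desc (E.seqCocone g) n)

theorem stepι_ιs (X : M) (n : ℕ) :
    stepι g ((E.stage g n).q X) ≫ E.ιs g X (n + 1) = E.ιs g X n := by
  rw [← seq_map_succ]
  exact (E.cocone g X).w (homOfLE (Nat.le_succ n))

/-- the lifting property, for squares whose top map factors through a stage -/
theorem exists_lift (X : M) (i : ι) (n : ℕ) (a : A i ⟶ (E.stage g n).Q.obj X) (h : B i ⟶ X)
    (w : g i ≫ h = (a ≫ E.ιs g X n) ≫ (E.lim g).q X) :
    ∃ l : B i ⟶ (E.lim g).Q.obj X, g i ≫ l = a ≫ E.ιs g X n ∧ l ≫ (E.lim g).q X = h := by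
  have w' : g i ≫ h = a ≫ (E.stage g n).q X := by rw [w, Category.assoc, ιs_q]
  refine ⟨cellι g _ i a h w' ≫ E.ιs g X (n + 1), ?_, ?_⟩
  · exact (g_cellι_assoc g _ i a h w' _).trans (congrArg (a ≫ ·) (E.stepι_ιs g X n))
  · exact (Category.assoc _ _ _).trans
      ((congrArg (cellι g _ i a h w' ≫ ·) (E.ιs_q g X (n + 1))).trans (cellι_π g _ i a h w'))

/-- **The small object argument**: the augmentation has the right lifting property. -/
theorem hasLiftingProperty (X : M) (i : ι)
    (hs : ∀ f : A i ⟶ (E.cocone g X).pt, ∃ (n : ℕ) (a : A i ⟶ (E.seq g X).obj n),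
      a ≫ (E.cocone g X).ι.app n = f) :
    HasLiftingProperty (g i) ((E.lim g).q X) where
  sq_hasLift {f h} sq := by
    obtain ⟨n, a, rfl⟩ := hs f
    obtain ⟨l, h1, h2⟩ := E.exists_lift g X i n a h sq.w.symm
    exact ⟨⟨⟨l, h1, h2⟩⟩⟩

end Appr

end Vale.Agent.P251CB
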